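import Vale.Agent.P065c.Planar

/-!
# Halving lines and `k`-sets: a lower bound `n ^ (1 + c / (log log n) ^ 4)`
-/

namespace Vale.Agent.Results.P065.KSetPolyLogLog

open Vale.Agent.P065 Vale.Agent.P065c

/-- `h(n) ≥ n exp (c log n / (log log n) ^ 4)` and
`e_k(n) ≥ n exp (c log k / (log log k) ^ 4)`. -/
theorem result : ∃ c : ℝ, 0 < c ∧ ∃ k₀ : ℕ,
    (∀ n : ℕ, Even n → k₀ ≤ n → ∃ P : Finset (ℝ × ℝ), P.card = n ∧ NoThreeCollinear P ∧
      (n : ℝ) * Real.exp (c * Real.log n / Real.log (Real.log n) ^ 4) ≤ (numHalving P : ℝ)) ∧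
    (∀ k n : ℕ, k₀ ≤ k → 2 * k ≤ n → ∃ P : Finset (ℝ × ℝ), P.card = n ∧ NoThreeCollinear P ∧
      (n : ℝ) * Real.exp (c * Real.log k / Real.log (Real.log k) ^ 4) ≤ (numKSets P k : ℝ)) := by
  obtain ⟨M, k₀, hM, hmany⟩ := exists_many
  have hMr : (1 : ℝ) ≤ M := by exact_mod_cast hM
  refine ⟨1 / (2500 * M), by positivity, 2 * k₀, ?_, ?_⟩
  · intro n hn hn0
    obtain ⟨k, rfl⟩ := hn
    obtain ⟨D, hD, hL, hLD, hP⟩ := hmany k (by omega)
    obtain ⟨P, hcard, hcol, -, hh⟩ := hP 1 0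
    refine ⟨P, by omega, hcol, ?_⟩
    have hm : ((2 ^ D * k : ℕ) : ℝ) ≤ ((2 * numHalving P : ℕ) : ℝ) :=
      Nat.cast_le.mpr (hh rfl rfl)
    have hk0 : (0 : ℝ) ≤ k := Nat.cast_nonneg k
    have hg := gain_large hM hD hL hLD ((k : ℝ) + k) (by linarith) (by linarith)
    push_cast at hm ⊢
    set E := Real.exp (1 / (2500 * (M : ℝ)) * Real.log ((k : ℝ) + k) /
      Real.log (Real.log ((k : ℝ) + k)) ^ 4)
    have hg' := mul_le_mul_of_nonneg_right hg hk0
    have he : 0 ≤ (k : ℝ) * E := mul_nonneg hk0 (Real.exp_pos _).le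
    linarith
  · intro k n hk hkn
    obtain ⟨D, hD, hL, hLD, hP⟩ := hmany k (by omega)
    obtain ⟨P, hcard, hcol, hks, -⟩ := hP (n / (2 * k)) (n % (2 * k))
    refine ⟨P, by rw [hcard]; exact Nat.div_add_mod n (2 * k), hcol, ?_⟩
    have hk1 : 0 < k := by
      rcases Nat.eq_zero_or_pos k with h | h
      · subst h; simp at hL
      · exact h
    have hr : n ≤ 4 * ((n / (2 * k)) * k) := by
      have h1 := Nat.div_add_mod n (2 * k)
      have h2 : n % (2 * k) < 2 * k := Nat.mod_lt _ (by omega)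
      have h3 : 1 ≤ n / (2 * k) := Nat.div_pos hkn (by omega)
      have h4 : 2 * k ≤ 2 * k * (n / (2 * k)) := Nat.le_mul_of_pos_right _ h3
      have h5 : 2 * k * (n / (2 * k)) = 2 * ((n / (2 * k)) * k) := by ring
      omega
    have hr' : (n : ℝ) ≤ 4 * (((n / (2 * k)) * k : ℕ) : ℝ) := by exact_mod_cast hr
    have hm : ((n / (2 * k) * (2 ^ D * k) : ℕ) : ℝ) ≤ ((2 * numKSets P k : ℕ) : ℝ) :=
      Nat.cast_le.mpr hks
    have hg := gain_large hM hD hL hLD (k : ℝ) le_rfl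
      (by have : (0 : ℝ) ≤ k := Nat.cast_nonneg k; linarith)
    push_cast at hm hr'
    set q := ((n / (2 * k) : ℕ) : ℝ)
    set E := Real.exp (1 / (2500 * (M : ℝ)) * Real.log k / Real.log (Real.log k) ^ 4)
    have h1 : (n : ℝ) * E ≤ 4 * (q * k) * E := mul_le_mul_of_nonneg_right hr' (Real.exp_pos _).le
    have h2 := mul_le_mul_of_nonneg_left hg (by positivity : (0 : ℝ) ≤ q * k)
    linarith

end Vale.Agent.Results.P065.KSetPolyLogLog
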